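import Vale.Agent.Lib.P047.Final

/-!
P047 (Gopalan-Servedio): two unconditional constructions.

(1) Composition: if `g` is Boolean with `E g = 0`, then for every Boolean `f` there is a Boolean
`h` with `E h = E f`, `∑_i ĥ({i}) = (∑_i f̂({i})) (∑_i ĝ({i}))` and `deg h ≤ deg f * deg g`.

(2) Odd extension: for every Boolean `f` on `n` variables there is a Boolean `h` on `n + 1`
variables with `E h = 0`, `∑_i ĥ({i}) = ∑_i f̂({i}) + |E f|`, `deg h ≤ deg f + 1`, and
`deg h ≤ deg f` if `deg f` is odd.
-/

namespace Vale.Agent.Results.P047.Amplification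

open Vale.Agent.Lib.P047

theorem result :
    (∀ (n m : ℕ) (f : (Fin n → Bool) → ℝ) (g : (Fin m → Bool) → ℝ),
        IsBoolean f → IsBoolean g → fhat g ∅ = 0 →
        ∃ h : (Fin (n * m) → Bool) → ℝ, IsBoolean h ∧ fhat h ∅ = fhat f ∅
          ∧ linSum h = linSum f * linSum g ∧ degree h ≤ degree f * degree g)
    ∧ (∀ (n : ℕ) (f : (Fin n → Bool) → ℝ), IsBoolean f →
        ∃ h : (Fin (n + 1) → Bool) → ℝ, IsBoolean h ∧ fhat h ∅ = 0
          ∧ linSum h = linSum f + |fhat f ∅| ∧ degree h ≤ degree f + 1
          ∧ (Odd (degree f) → degree h ≤ degree f)) := by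
  constructor
  · intro n m f g hf hg hmean
    obtain ⟨gB, rfl⟩ := exists_re g hg
    have hsum := sum_eq_zero_of_mean (re gB) hmean
    refine ⟨reindex finProdFinEquiv (comp f gB), ?_, ?_, ?_, ?_⟩
    · intro x
      exact hf _
    · have h1 := fhat_reindex_map finProdFinEquiv (comp f gB) ∅
      rw [Finset.map_empty] at h1
      rw [h1]
      exact mean_comp f gB hsum
    · rw [linSum_reindex]
      exact linSum_comp f gB hsum
    · rw [degree_reindex]
      exact degree_comp f gB hsum
  · intro n f hf
    obtain ⟨O, hO, hs, hd, hd'⟩ := exists_oddify f hf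
    refine ⟨reindex (finSuccEquiv n).symm (re O), ?_, ?_, ?_, ?_, ?_⟩
    · intro x
      exact isBoolean_re O _
    · have h1 := fhat_reindex_map (finSuccEquiv n).symm (re O) ∅
      rw [Finset.map_empty] at h1
      rw [h1]
      exact mean_of_sum_eq_zero (re O) hO
    · rw [linSum_reindex]
      exact hs
    · rw [degree_reindex]
      exact hd
    · intro hodd
      rw [degree_reindex]
      exact hd' hodd

end Vale.Agent.Results.P047.Amplification
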