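import Vale.Agent.Lib.P047.CubeMain

/-!
P047 (Gopalan-Servedio): the square-root bound, and the sharp bound `B_D`, for functions with
fractional partitions into monochromatic subcubes.

Let `f` be Boolean on `{-1,1}^ι`.  Let `ρ k` (`k : κ`, `κ` finite) be subcubes with weights
`w k ≥ 0` such that for every point `x` the weights of the subcubes containing `x` add up to `1`,
and such that `f` is constant on every subcube of nonzero weight.  (With all weights `1` this is
a partition of the cube into subcubes on which `f` is constant, for instance the leaves of a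
decision tree computing `f`.)  Then

* `∑_i f̂({i}) ≤ √((1 - (E f)^2) * Δ)`, where `Δ = ∑_k w_k c_k 2^(-c_k)` is the average
  codimension (`c_k` the codimension of the `k`-th subcube);
* if every subcube of nonzero weight has codimension at most `D`, then `deg f ≤ D` and
  `∑_i f̂({i}) ≤ B_D`.
-/

namespace Vale.Agent.Results.P047.Certificates

open Vale.Agent.Lib.P047

theorem result {ι κ : Type} [Fintype ι] [DecidableEq ι] [Fintype κ]
    (f : (ι → Bool) → ℝ) (hf : IsBoolean f)
    (ρ : κ → ι → Option Bool) (w : κ → ℝ) (hw : ∀ k, 0 ≤ w k)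
    (hcover : ∀ x, ∑ k, w k * ind (ρ k) x = 1)
    (hconst : ∀ k, w k ≠ 0 → ∀ x y, InCube (ρ k) x → InCube (ρ k) y → f x = f y) :
    linSum f ≤ Real.sqrt ((1 - fhat f ∅ ^ 2)
        * ∑ k, w k * ((codim (ρ k) : ℝ) / 2 ^ codim (ρ k)))
    ∧ ∀ D : ℕ, (∀ k, w k ≠ 0 → codim (ρ k) ≤ D) → degree f ≤ D ∧ linSum f ≤ Bd D := by
  refine ⟨linSum_le_sqrt_var f hf ρ w hw hcover hconst, ?_⟩
  intro D hD
  exact ⟨degree_le_cells f ρ w hcover hconst D hD,
    le_trans (linSum_le_abs f hf ρ w hw hcover hconst) (Bd_lower ρ w hw hcover D hD)⟩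

end Vale.Agent.Results.P047.Certificates
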