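import Vale.Agent.Lib.P047.Gap

/-!
P047 (Gopalan-Servedio): a dichotomy between the strong and the weak form.

Either every Boolean function `f` satisfies the strong bound in the shape
`∑_i f̂({i}) + |E f| ≤ √(deg f + 1)` (with `√(deg f)` when `deg f` is odd, and
`∑_i f̂({i}) ≤ √(deg f)` when `E f = 0`), or the weak form fails for every constant `C`, and
moreover with a power gap: for some `ε > 0` there are Boolean functions with arbitrarily large
`∑_i f̂({i})` that is at least `(deg f) ^ (1/2 + ε)`.
-/

namespace Vale.Agent.Results.P047.Dichotomy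

open Vale.Agent.Lib.P047

theorem result :
    (∀ (n : ℕ) (f : (Fin n → Bool) → ℝ), IsBoolean f →
        linSum f + |fhat f ∅| ≤ Real.sqrt ((degree f : ℝ) + 1)
        ∧ (Odd (degree f) → linSum f + |fhat f ∅| ≤ Real.sqrt (degree f))
        ∧ (fhat f ∅ = 0 → linSum f ≤ Real.sqrt (degree f)))
    ∨ ((∀ C : ℝ, ∃ (n : ℕ) (f : (Fin n → Bool) → ℝ), IsBoolean f ∧
          C * Real.sqrt (degree f) < linSum f)
        ∧ (∃ ε : ℝ, 0 < ε ∧ ∀ K : ℝ, ∃ (n : ℕ) (f : (Fin n → Bool) → ℝ), IsBoolean f ∧
          K ≤ linSum f ∧ (degree f : ℝ) ^ (1 / 2 + ε) ≤ linSum f)) := by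
  by_cases hall : ∀ (n : ℕ) (f : (Fin n → Bool) → ℝ), IsBoolean f →
        linSum f + |fhat f ∅| ≤ Real.sqrt ((degree f : ℝ) + 1)
        ∧ (Odd (degree f) → linSum f + |fhat f ∅| ≤ Real.sqrt (degree f))
        ∧ (fhat f ∅ = 0 → linSum f ≤ Real.sqrt (degree f))
  · exact Or.inl hall
  · right
    constructor
    · intro C
      by_contra hcon
      apply hall
      intro n f hf
      apply weak_imp_strong C _ n f hf
      intro m g hg
      by_contra h
      exact hcon ⟨m, g, hg, lt_of_not_ge h⟩
    · by_contra hcon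
      apply hall
      intro n f hf
      by_contra hv
      exact hcon (gap_of_violation n f hf hv)

end Vale.Agent.Results.P047.Dichotomy
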