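import Vale.Agent.Lib.P047.UpperBound

/-!
P047 (Gopalan-Servedio): a linear upper bound with a constant below one.

For every Boolean function `f` on `{-1,1}^ι` (`ι` finite) of degree `d ≥ 2`,

  `∑_i f̂({i}) ≤ (39/40) d`.

Hence `M(d) ≤ (39/40) d` for all `d ≥ 2`, which improves the bound `M(d) ≤ d` (the value `d` is
the exact supremum for functions with values in `[-1,1]`, by Chebyshev polynomials, so the
improvement uses that `f` is Boolean).

Proof.  Let `P(t) = ∑_T f̂(T) t^{|T|}` be the bias polynomial: `P(t)` is the mean of `f` when the
coordinates are independent with mean `t`.  Expanding `f` in the orthogonal shifted characters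
`∏_{j ∈ S} (x_j - t)` and using that the discrete derivatives of a Boolean function take values in
`{-1,0,1}` gives the differential inequality `(1 - t²) |P'(t)| ≤ d (1 - P(t)²)` on `[-1,1]`
(`bias_diff_ineq`).  The odd part `Q(t) = (P(t) - P(-t))/2` satisfies the same inequality, has
`Q(0) = 0`, `Q'(0) = ∑_i f̂({i})` and degree at most the largest odd number `m ≤ d`; comparison
with the extremal solution gives `Q(x) ≤ tanh (d artanh x)` on `[0,1)` (`ode_comparison`).
Lagrange interpolation at the Chebyshev nodes `cos (k π / m)` writes `Q'(0)` as a combination of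
the values of `Q` at the nodes with coefficients of total mass `m`; the two nodes
`± sin (π / (2m))` nearest to `0` carry mass `1 / (m sin² (π / (2m))) ≥ 4m/π²` each, and there
`|Q| ≤ tanh (d artanh (sin (π/(2m))))`, which stays bounded away from `1`
(`derivative_eval_zero_le_refined`, `num_generic`).
-/

namespace Vale.Agent.Results.P047.LinearUpperBound

open Vale.Agent.Lib.P047

/-- **A linear bound with constant below one.**  Every Boolean function `f` on the cube of degree
at least `2` satisfies `∑_i f̂({i}) ≤ (39/40) deg f`. -/
theorem result {ι : Type} [Fintype ι] [DecidableEq ι]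
    (f : (ι → Bool) → ℝ) (hf : IsBoolean f) (hd : 2 ≤ degree f) :
    linSum f ≤ 39 / 40 * (degree f : ℝ) :=
  linSum_le_linear f hf hd

end Vale.Agent.Results.P047.LinearUpperBound
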